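import Vale.Agent.P068R.Chain
import Vale.Agent.P068.PackingCovering

namespace Vale.Agent.Results.P068.IntersectionFalseUnderReaping

open Set
open scoped Matroid Cardinal

theorem result
    (h : Cardinal.continuum.{0} = Cardinal.aleph 1 ∨
      (∀ S : Set (Set (ℕ → Bool)), #S < 𝔠 → (∀ A ∈ S, IsNowhereDense A) → ⋃₀ S ≠ univ) ∨
      ∀ S : Set (Set ℕ), #S < 𝔠 → (∀ A ∈ S, A.Infinite) →
        ∃ c : Set ℕ, ∀ A ∈ S, (A ∩ c).Infinite ∧ (A \ c).Infinite) :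
    ∃ M N : Matroid (ℤ × ℕ), M.E = univ ∧ N.E = univ ∧
      (¬ ∃ JM JN : Set (ℤ × ℕ), Disjoint JM JN ∧ M.Indep (JM ∪ JN) ∧ N.Indep (JM ∪ JN) ∧
        M.closure JM ∪ N.closure JN = univ) ∧
      ¬ ∃ P C S₁ S₂ I₁ I₂ : Set (ℤ × ℕ), Disjoint P C ∧ P ∪ C = univ ∧
        S₁ ⊆ P ∧ S₂ ⊆ P ∧ Disjoint S₁ S₂ ∧
        (M ↾ P).closure S₁ = P ∧ (N✶ ↾ P).closure S₂ = P ∧
        ((M✶ ↾ C)✶).Indep I₁ ∧ ((N✶✶ ↾ C)✶).Indep I₂ ∧ I₁ ∪ I₂ = C := by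
  obtain ⟨s, hg, hgoal, htot⟩ :=
    Vale.Agent.P068R.exists_final
    (h.elim Vale.Agent.P068R.reap_of_ch fun h' => h'.elim Vale.Agent.P068R.reap_of_cov id)
  let F : Vale.Agent.P068R.Final := ⟨s, hg, hgoal, htot⟩
  have hE := Vale.Agent.P068R.onNodes_ground F.V rfl 1
  have hE' := Vale.Agent.P068R.onNodes_ground F.V✶ rfl 0
  refine ⟨_, _, hE, hE', ?_, ?_⟩
  · rintro ⟨JM, JN, hd, hM, hN, hcl⟩
    exact Vale.Agent.P068R.no_intersection F JM JN hd hM hN hcl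
  · rintro ⟨P, C, S₁, S₂, I₁, I₂, a, b, c, d, e, f, g, h, i, j⟩
    obtain ⟨JM, JN, hd, hM, hN, hcl⟩ :=
      Vale.Agent.P068.intersection_of_packing_covering hE hE' a b c d e f g h i j
    exact Vale.Agent.P068R.no_intersection F JM JN hd hM hN hcl

end Vale.Agent.Results.P068.IntersectionFalseUnderReaping
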