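import Vale.Agent.P068.UniformFamily

namespace Vale.Agent.Results.P068.UniformFamilyPackingCovering

open Set
open scoped Matroid

theorem result {α : Type*} {Θ : Type*} (E : Set α) (M : Θ → Matroid α)
    (hE : ∀ i, (M i).E = E)
    (hu : ∀ i j, i ≠ j → (∀ X ⊆ E, (M i).Indep X ∨ (M i).Spanning X) ∨
      (∀ X ⊆ E, (M j).Indep X ∨ (M j).Spanning X)) :
    ∃ (P C : Set α) (S I : Θ → Set α), Disjoint P C ∧ P ∪ C = E ∧ (∀ i, S i ⊆ P) ∧
      Pairwise (Function.onFun Disjoint S) ∧ (∀ i, (M i ↾ P).closure (S i) = P) ∧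
      (∀ i, (((M i)✶ ↾ C)✶).Indep (I i)) ∧ (⋃ i, I i) = C :=
  Vale.Agent.P068.packing_covering_uniform_family E M hE hu

end Vale.Agent.Results.P068.UniformFamilyPackingCovering
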